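import Vale.Agent.P024.Fin

namespace Vale.Agent.Results.P024.A_full

/-- `E` has no nontrivial abelian algebraic extension -/
def SolvablyClosed (E : Type*) [Field E] : Prop :=
  ∀ L : IntermediateField E (AlgebraicClosure E), IsAbelianGalois E L → L = ⊥

theorem result (F₁ F₂ E₁ E₂ : Type*) [Field F₁] [NumberField F₁] [Field F₂] [NumberField F₂]
    [Field E₁] [Algebra F₁ E₁] [IsGalois F₁ E₁] [Field E₂] [Algebra F₂ E₂] [IsGalois F₂ E₂]
    (_h₁ : SolvablyClosed E₁) (h₂ : SolvablyClosed E₂)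
    (α : (E₁ ≃ₐ[F₁] E₁) →* (E₂ ≃ₐ[F₂] E₂)) (hc : Continuous α) (ho : IsOpen (Set.range α)) :
    ∃ j : E₂ →+* E₁, ∀ (g : E₁ ≃ₐ[F₁] E₁) (x : E₂), g (j x) = j (α g x) :=
  Vale.Agent.P024.uchida F₁ F₂ E₁ E₂ h₂ α hc ho

end Vale.Agent.Results.P024.A_full
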